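import Mathlib

/-!
P031: the combinatorial core of Brun's pure sieve (truncated inclusion–exclusion).
-/

open Finset

namespace Vale.Agent.P031.Sieve

variable {ι α : Type*} [DecidableEq ι]

/-- The sum of `∏ g` over the subsets of size exactly `k`. -/
noncomputable def esum (g : ι → ℝ) (P : Finset ι) (k : ℕ) : ℝ :=
  ∑ S ∈ P.powersetCard k, ∏ i ∈ S, g i

/-- The sum of `∏ g` over the subsets of size at most `k`. -/
noncomputable def trunc (g : ι → ℝ) (P : Finset ι) (k : ℕ) : ℝ :=
  ∑ j ∈ range (k + 1), esum g P j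

omit [DecidableEq ι] in
lemma esum_zero (g : ι → ℝ) (P : Finset ι) : esum g P 0 = 1 := by simp [esum]

omit [DecidableEq ι] in
lemma esum_empty (g : ι → ℝ) (k : ℕ) : esum g ∅ (k + 1) = 0 := by
  rw [esum, Finset.powersetCard_eq_empty.2 (by simp), Finset.sum_empty]

lemma esum_insert (g : ι → ℝ) {P : Finset ι} {a : ι} (ha : a ∉ P) (k : ℕ) :
    esum g (insert a P) (k + 1) = esum g P (k + 1) + g a * esum g P k := by
  rw [esum, Finset.powersetCard_succ_insert ha, Finset.sum_union, esum, esum,
    Finset.sum_image, Finset.mul_sum]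
  · congr 1
    refine Finset.sum_congr rfl fun S hS => ?_
    rw [Finset.prod_insert fun h => ha ((Finset.mem_powersetCard.1 hS).1 h)]
  · intro S hS T hT h
    rw [Finset.mem_coe] at hS hT
    exact (Finset.erase_insert fun h' => ha ((Finset.mem_powersetCard.1 hS).1 h')).symm.trans
      ((congrArg (Finset.erase · a) h).trans
        (Finset.erase_insert fun h' => ha ((Finset.mem_powersetCard.1 hT).1 h')))
  · rw [Finset.disjoint_left]
    intro S hS hS'
    obtain ⟨T, _, rfl⟩ := Finset.mem_image.1 hS'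
    exact ha ((Finset.mem_powersetCard.1 hS).1 (Finset.mem_insert_self _ _))

omit [DecidableEq ι] in
lemma esum_nonneg {g : ι → ℝ} {P : Finset ι} (hg : ∀ i ∈ P, 0 ≤ g i) (k : ℕ) :
    0 ≤ esum g P k :=
  Finset.sum_nonneg fun S hS => Finset.prod_nonneg fun i hi =>
    hg i ((Finset.mem_powersetCard.1 hS).1 hi)

/-- `e_k ≤ G ^ k / k!`. -/
lemma esum_le {g : ι → ℝ} {P : Finset ι} (hg : ∀ i ∈ P, 0 ≤ g i) (k : ℕ) :
    esum g P k ≤ (∑ i ∈ P, g i) ^ k / k.factorial := by
  induction P using Finset.induction generalizing k with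
  | empty =>
    cases k with
    | zero => simp [esum_zero]
    | succ k => simp [esum_empty]
  | @insert a P ha ih =>
    have hg' : ∀ i ∈ P, 0 ≤ g i := fun i hi => hg i (Finset.mem_insert_of_mem hi)
    have hga : 0 ≤ g a := hg a (Finset.mem_insert_self _ _)
    cases k with
    | zero => simp [esum_zero]
    | succ k =>
      rw [esum_insert g ha, Finset.sum_insert ha]
      set G := ∑ i ∈ P, g i
      have hG : 0 ≤ G := Finset.sum_nonneg hg'
      have hb : ∀ n : ℕ, G ^ (n + 1) + (n + 1 : ℝ) * G ^ n * g a ≤ (g a + G) ^ (n + 1) := by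
        intro n
        induction n with
        | zero => simp; linarith
        | succ n ihn =>
          have := mul_le_mul_of_nonneg_left ihn (add_nonneg hga hG)
          have h0 : 0 ≤ (n + 1 : ℝ) * G ^ n * g a * g a := by positivity
          push_cast
          ring_nf at this h0 ⊢
          linarith
      calc esum g P (k + 1) + g a * esum g P k
          ≤ G ^ (k + 1) / (k + 1).factorial + g a * (G ^ k / k.factorial) :=
            add_le_add (ih hg' _) (mul_le_mul_of_nonneg_left (ih hg' _) hga)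
        _ = (G ^ (k + 1) + (k + 1 : ℝ) * G ^ k * g a) / (k + 1).factorial := by
            rw [Nat.factorial_succ]; push_cast; field_simp
        _ ≤ _ := div_le_div_of_nonneg_right (hb k) (by positivity)

/-- Sums over small subsets of nonnegative weights. -/
lemma trunc_le {g : ι → ℝ} {P : Finset ι} (hg : ∀ i ∈ P, 0 ≤ g i) (k : ℕ) :
    trunc g P k ≤ (1 + ∑ i ∈ P, g i) ^ k := by
  induction P using Finset.induction generalizing k with
  | empty => simp [trunc, Finset.sum_range_succ', esum_zero, esum_empty]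
  | @insert a P ha ih =>
    have hg' : ∀ i ∈ P, 0 ≤ g i := fun i hi => hg i (Finset.mem_insert_of_mem hi)
    have hga : 0 ≤ g a := hg a (Finset.mem_insert_self _ _)
    cases k with
    | zero => simp [trunc, esum_zero]
    | succ k =>
      have e : trunc g (insert a P) (k + 1) = trunc g P (k + 1) + g a * trunc g P k := by
        simp only [trunc, Finset.sum_range_succ' _ (k + 1), esum_zero, esum_insert g ha,
          Finset.sum_add_distrib, Finset.mul_sum]
        ring
      rw [e, Finset.sum_insert ha]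
      set G := ∑ i ∈ P, g i
      have hG : 0 ≤ G := Finset.sum_nonneg hg'
      calc trunc g P (k + 1) + g a * trunc g P k ≤ (1 + G) ^ (k + 1) + g a * (1 + G) ^ k :=
            add_le_add (ih hg' _) (mul_le_mul_of_nonneg_left (ih hg' _) hga)
        _ = (1 + (g a + G)) * (1 + G) ^ k := by ring
        _ ≤ (1 + (g a + G)) * (1 + (g a + G)) ^ k := by gcongr; linarith
        _ = _ := by ring

/-- Truncated inclusion–exclusion differs from the product by at most the next term. -/
lemma abs_trunc_neg_sub_prod_le {g : ι → ℝ} {P : Finset ι}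
    (hg : ∀ i ∈ P, 0 ≤ g i ∧ g i ≤ 1) (k : ℕ) :
    |trunc (fun i => -g i) P k - ∏ i ∈ P, (1 - g i)| ≤ esum g P (k + 1) := by
  induction P using Finset.induction generalizing k with
  | empty => simp [trunc, Finset.sum_range_succ', esum_zero, esum_empty]
  | @insert a P ha ih =>
    have hg' : ∀ i ∈ P, 0 ≤ g i ∧ g i ≤ 1 := fun i hi => hg i (Finset.mem_insert_of_mem hi)
    obtain ⟨hga, hga1⟩ := hg a (Finset.mem_insert_self _ _)
    rw [esum_insert g ha, Finset.prod_insert ha]
    cases k with
    | zero =>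
      have h1 := ih hg' 0
      simp only [trunc, zero_add, Finset.sum_range_one, esum_zero] at h1 ⊢
      rw [show (1 : ℝ) - (1 - g a) * ∏ i ∈ P, (1 - g i) =
        (1 - ∏ i ∈ P, (1 - g i)) + g a * ∏ i ∈ P, (1 - g i) by ring]
      refine (abs_add_le _ _).trans (add_le_add h1 ?_)
      have h0 : 0 ≤ ∏ i ∈ P, (1 - g i) := Finset.prod_nonneg fun i hi => by linarith [(hg' i hi).2]
      rw [abs_of_nonneg (mul_nonneg hga h0), mul_one]
      exact mul_le_of_le_one_right hga (Finset.prod_le_one
        (fun i hi => by linarith [(hg' i hi).2]) fun i hi => by linarith [(hg' i hi).1])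
    | succ k =>
      have e : trunc (fun i => -g i) (insert a P) (k + 1) =
          trunc (fun i => -g i) P (k + 1) - g a * trunc (fun i => -g i) P k := by
        simp only [trunc, Finset.sum_range_succ' _ (k + 1), esum_zero, esum_insert _ ha,
          Finset.sum_add_distrib, neg_mul, Finset.sum_neg_distrib, ← Finset.mul_sum]
        ring
      rw [e, show trunc (fun i => -g i) P (k + 1) - g a * trunc (fun i => -g i) P k -
          (1 - g a) * ∏ i ∈ P, (1 - g i) =
        (trunc (fun i => -g i) P (k + 1) - ∏ i ∈ P, (1 - g i)) -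
          g a * (trunc (fun i => -g i) P k - ∏ i ∈ P, (1 - g i)) by ring]
      refine (abs_sub _ _).trans (add_le_add (ih hg' _) ?_)
      rw [abs_mul, abs_of_nonneg hga]
      exact mul_le_mul_of_nonneg_left (ih hg' _) hga

/-- An even truncation of the inclusion–exclusion sum bounds the unsifted indicator from above. -/
lemma indicator_le_trunc (T : Finset ι) (m : ℕ) :
    (if T = ∅ then (1 : ℝ) else 0) ≤ ∑ j ∈ range (2 * m + 1), (-1 : ℝ) ^ j * (T.card.choose j) := by
  rcases T.eq_empty_or_nonempty with rfl | hT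
  · simp [Finset.sum_range_succ']
  · obtain ⟨n, hn⟩ : ∃ n, T.card = n + 1 := ⟨T.card - 1, by have := hT.card_pos; omega⟩
    have h := congrArg (fun z : ℤ => (z : ℝ))
      (Int.alternating_sum_range_choose_eq_choose (n := n) (m := 2 * m))
    push_cast at h
    rw [if_neg hT.ne_empty, hn]
    refine le_of_le_of_eq ?_ h.symm
    rw [pow_mul]
    simp

/-- Brun's pure sieve, combinatorial form. -/
theorem card_unsifted_le (P : Finset ι) (A : Finset α) (bad : ι → α → Prop)
    [∀ i a, Decidable (bad i a)] (g : ι → ℝ) {X : ℝ} (hX : 0 ≤ X) (r : Finset ι → ℝ) (m : ℕ)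
    (hg : ∀ i ∈ P, 0 ≤ g i ∧ g i ≤ 1)
    (hcount : ∀ S ⊆ P, S.card ≤ 2 * m →
      |((A.filter fun a => ∀ i ∈ S, bad i a).card : ℝ) - X * ∏ i ∈ S, g i| ≤ r S) :
    ((A.filter fun a => ∀ i ∈ P, ¬ bad i a).card : ℝ) ≤
      X * (∏ i ∈ P, (1 - g i) + esum g P (2 * m + 1)) +
        ∑ j ∈ range (2 * m + 1), ∑ S ∈ P.powersetCard j, r S := by
  classical
  have h1 : ((A.filter fun a => ∀ i ∈ P, ¬ bad i a).card : ℝ) ≤
      ∑ j ∈ range (2 * m + 1), ∑ S ∈ P.powersetCard j,
        (-1 : ℝ) ^ j * ((A.filter fun a => ∀ i ∈ S, bad i a).card : ℝ) := by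
    have e : ∀ j, ∑ S ∈ P.powersetCard j,
        (-1 : ℝ) ^ j * ((A.filter fun a => ∀ i ∈ S, bad i a).card : ℝ) =
        ∑ a ∈ A, (-1 : ℝ) ^ j * ((P.filter fun i => bad i a).card.choose j) := by
      intro j
      rw [← Finset.mul_sum, ← Finset.mul_sum]
      congr 1
      simp_rw [Finset.card_filter, Nat.cast_sum]
      rw [Finset.sum_comm]
      refine Finset.sum_congr rfl fun a _ => ?_
      simp only [apply_ite (Nat.cast : ℕ → ℝ), Nat.cast_one, Nat.cast_zero]
      rw [Finset.sum_boole]
      have hT : (P.powersetCard j).filter (fun S => ∀ i ∈ S, bad i a) =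
          (P.filter fun i => bad i a).powersetCard j := by
        ext S
        simp only [Finset.mem_filter, Finset.mem_powersetCard, Finset.subset_iff]
        grind
      rw [hT, Finset.card_powersetCard, Finset.card_filter]
    simp_rw [e]
    rw [Finset.sum_comm, Finset.card_filter, Nat.cast_sum]
    refine Finset.sum_le_sum fun a _ => ?_
    refine le_of_eq_of_le ?_ (indicator_le_trunc (P.filter fun i => bad i a) m)
    simp [Finset.filter_eq_empty_iff]
  refine h1.trans ?_
  have h2 : ∀ j ∈ range (2 * m + 1), ∀ S ∈ P.powersetCard j,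
      (-1 : ℝ) ^ j * ((A.filter fun a => ∀ i ∈ S, bad i a).card : ℝ) ≤
        X * ∏ i ∈ S, -g i + r S := by
    intro j hj S hS
    obtain ⟨hSP, hSc⟩ := Finset.mem_powersetCard.1 hS
    have := hcount S hSP (by have := Finset.mem_range.1 hj; omega)
    rw [abs_le] at this
    rw [Finset.prod_neg, hSc]
    rcases neg_one_pow_eq_or ℝ j with h | h <;> rw [h] <;> linarith
  refine (Finset.sum_le_sum fun j hj => Finset.sum_le_sum (h2 j hj)).trans ?_
  simp only [Finset.sum_add_distrib, ← Finset.mul_sum]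
  refine add_le_add (mul_le_mul_of_nonneg_left ?_ hX) le_rfl
  have := (abs_le.1 (abs_trunc_neg_sub_prod_le hg (2 * m))).2
  simp only [trunc, esum] at this ⊢
  linarith

/-- The tail term is dominated by the product once the truncation exceeds nine times the sum. -/
theorem esum_le_prod {g : ι → ℝ} {P : Finset ι} (hg : ∀ i ∈ P, 0 ≤ g i ∧ g i ≤ 1 / 2)
    {k : ℕ} (hk : 9 * ∑ i ∈ P, g i ≤ k) :
    esum g P k ≤ ∏ i ∈ P, (1 - g i) := by
  set G := ∑ i ∈ P, g i with hGdef
  have hG : 0 ≤ G := Finset.sum_nonneg fun i hi => (hg i hi).1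
  have hprod : Real.exp (-(2 * G)) ≤ ∏ i ∈ P, (1 - g i) := by
    rw [hGdef, Finset.mul_sum, ← Finset.sum_neg_distrib, Real.exp_sum]
    refine Finset.prod_le_prod (fun i _ => (Real.exp_pos _).le) fun i hi => ?_
    obtain ⟨h0, h1⟩ := hg i hi
    rw [Real.exp_neg]
    refine inv_le_of_inv_le₀ (by linarith) ?_
    have := Real.add_one_le_exp (2 * g i)
    refine le_trans ?_ this
    rw [inv_le_iff_one_le_mul₀ (by linarith)]
    nlinarith
  refine le_trans ?_ hprod
  refine (esum_le (fun i hi => (hg i hi).1) k).trans ?_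
  -- `G ^ k / k! = (G / k) ^ k * k ^ k / k! ≤ (G / k) ^ k * e ^ k ≤ e ^ (-k)`.
  rcases Nat.eq_zero_or_pos k with rfl | hk0
  · have : G = 0 := by simp only [CharP.cast_eq_zero] at hk; linarith
    simp [this]
  have hkr : (0 : ℝ) < k := by exact_mod_cast hk0
  have h2 := Real.pow_div_factorial_le_exp (x := (k : ℝ)) hkr.le k
  have e1 : G ^ k / k.factorial = (G / k) ^ k * ((k : ℝ) ^ k / k.factorial) := by
    rw [div_pow]; field_simp
  have h3 : G / k ≤ Real.exp (-2) := by
    rw [div_le_iff₀ hkr, Real.exp_neg, ← div_eq_inv_mul, le_div_iff₀ (Real.exp_pos _)]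
    have he : Real.exp 2 ≤ 9 := by
      have := Real.exp_one_lt_d9
      rw [show (2 : ℝ) = 1 + 1 by norm_num, Real.exp_add]
      nlinarith [Real.exp_pos 1]
    nlinarith
  calc G ^ k / k.factorial = (G / k) ^ k * ((k : ℝ) ^ k / k.factorial) := e1
    _ ≤ Real.exp (-2) ^ k * Real.exp k := by gcongr
    _ = Real.exp (-(k : ℝ)) := by rw [← Real.exp_nat_mul, ← Real.exp_add]; congr 1; ring
    _ ≤ _ := Real.exp_le_exp.2 (by nlinarith)

/-- Brun's pure sieve with the tail absorbed. -/
theorem card_unsifted_le_two (P : Finset ι) (A : Finset α) (bad : ι → α → Prop)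
    [∀ i a, Decidable (bad i a)] (g : ι → ℝ) {X : ℝ} (hX : 0 ≤ X) (c : ι → ℝ) (m : ℕ)
    (hg : ∀ i ∈ P, 0 ≤ g i ∧ g i ≤ 1 / 2) (hc : ∀ i ∈ P, 0 ≤ c i)
    (hm : 9 * ∑ i ∈ P, g i ≤ 2 * m + 1)
    (hcount : ∀ S ⊆ P, S.card ≤ 2 * m →
      |((A.filter fun a => ∀ i ∈ S, bad i a).card : ℝ) - X * ∏ i ∈ S, g i| ≤ ∏ i ∈ S, c i) :
    ((A.filter fun a => ∀ i ∈ P, ¬ bad i a).card : ℝ) ≤
      2 * X * ∏ i ∈ P, (1 - g i) + (1 + ∑ i ∈ P, c i) ^ (2 * m) := by
  refine (card_unsifted_le P A bad g hX _ m (fun i hi => ⟨(hg i hi).1, (hg i hi).2.trans (by norm_num)⟩)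
    hcount).trans (add_le_add ?_ (trunc_le hc (2 * m)))
  have := esum_le_prod hg (k := 2 * m + 1) (by exact_mod_cast hm)
  rw [mul_comm 2 X, mul_assoc]
  exact mul_le_mul_of_nonneg_left (by linarith) hX

end Vale.Agent.P031.Sieve
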