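import Mathlib
import Vale.Agent.P031.Sieve.Bonferroni

/-!
P031: Brun's pure sieve for residue classes modulo primes.
-/

open Finset

namespace Vale.Agent.P031.Sieve

/-- The residues modulo `∏ p ∈ S, p` lying in a prescribed class modulo each prime of `S`. -/
def classes (R : ℕ → Finset ℕ) (S : Finset ℕ) : Finset ℕ :=
  (range (∏ p ∈ S, p)).filter fun n => ∀ p ∈ S, n % p ∈ R p

lemma card_classes (R : ℕ → Finset ℕ) {S : Finset ℕ} (hS : ∀ p ∈ S, p.Prime)
    (hR : ∀ p ∈ S, R p ⊆ range p) : (classes R S).card = ∏ p ∈ S, (R p).card := by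
  induction S using Finset.induction with
  | empty => simp [classes]
  | @insert p S hp ih =>
    have hpp : p.Prime := hS p (Finset.mem_insert_self _ _)
    have hS' : ∀ q ∈ S, q.Prime := fun q hq => hS q (Finset.mem_insert_of_mem hq)
    have hR' : ∀ q ∈ S, R q ⊆ range q := fun q hq => hR q (Finset.mem_insert_of_mem hq)
    rw [Finset.prod_insert hp, ← ih hS' hR', ← Finset.card_product]
    set Q := ∏ q ∈ S, q with hQ
    have hQ0 : 0 < Q := Finset.prod_pos fun q hq => (hS' q hq).pos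
    have hco : Nat.Coprime p Q := by
      refine Nat.Coprime.symm (Nat.coprime_prod_left_iff.2 fun q hq => ?_)
      exact (Nat.coprime_primes (hS' q hq) hpp).2 fun h => hp (h ▸ hq)
    have hdvd : ∀ q ∈ S, q ∣ Q := fun q hq => Finset.dvd_prod_of_mem _ hq
    refine Finset.card_bij' (fun n _ => (n % p, n % Q))
      (fun x _ => ((Nat.chineseRemainder hco x.1 x.2 : { k // _ }) : ℕ)) ?_ ?_ ?_ ?_
    · intro n hn
      simp only [classes, Finset.mem_filter, Finset.mem_range, Finset.prod_insert hp,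
        Finset.forall_mem_insert] at hn
      simp only [Finset.mem_product, classes, Finset.mem_filter, Finset.mem_range, ← hQ]
      refine ⟨hn.2.1, Nat.mod_lt _ hQ0, fun q hq => ?_⟩
      rw [Nat.mod_mod_of_dvd _ (hdvd q hq)]
      exact hn.2.2 q hq
    · intro x hx
      simp only [Finset.mem_product, classes, Finset.mem_filter, Finset.mem_range, ← hQ] at hx
      obtain ⟨h1, h2⟩ := (Nat.chineseRemainder hco x.1 x.2).2
      simp only [classes, Finset.mem_filter, Finset.mem_range, Finset.prod_insert hp,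
        Finset.forall_mem_insert, ← hQ]
      refine ⟨Nat.chineseRemainder_lt_mul hco _ _ hpp.ne_zero hQ0.ne', ?_, fun q hq => ?_⟩
      · rw [h1, Nat.mod_eq_of_lt (Finset.mem_range.1 (hR p (Finset.mem_insert_self _ _) hx.1))]
        exact hx.1
      · rw [Nat.ModEq.of_dvd (hdvd q hq) h2]
        exact hx.2.2 q hq
    · intro n hn
      simp only [classes, Finset.mem_filter, Finset.mem_range, Finset.prod_insert hp] at hn
      obtain ⟨h1, h2⟩ := (Nat.chineseRemainder hco (n % p) (n % Q)).2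
      have h := (Nat.modEq_and_modEq_iff_modEq_mul hco).1
        ⟨h1.trans (Nat.mod_modEq n p), h2.trans (Nat.mod_modEq n Q)⟩
      exact (Nat.ModEq.eq_of_lt_of_lt h
        (Nat.chineseRemainder_lt_mul hco _ _ hpp.ne_zero hQ0.ne') hn.1)
    · intro x hx
      simp only [Finset.mem_product, classes, Finset.mem_filter, Finset.mem_range, ← hQ] at hx
      obtain ⟨h1, h2⟩ := (Nat.chineseRemainder hco x.1 x.2).2
      refine Prod.ext ?_ ?_
      · exact Eq.trans h1
          (Nat.mod_eq_of_lt (Finset.mem_range.1 (hR p (Finset.mem_insert_self _ _) hx.1)))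
      · exact Eq.trans h2 (Nat.mod_eq_of_lt hx.2.1)

/-- A residue class modulo `Q` meets `[0, N)` in `N / Q` points up to one. -/
lemma abs_card_modEq_sub_le {Q r : ℕ} (hr : r < Q) (N : ℕ) :
    |(((range N).filter fun n => n % Q = r).card : ℝ) - (N : ℝ) / Q| ≤ 1 := by
  have hQ : 0 < Q := by omega
  have e : ((range N).filter fun n => n % Q = r).card = Nat.count (· ≡ r [MOD Q]) N := by
    rw [Nat.count_eq_card_filter_range]
    congr 1
    ext n
    simp [Nat.ModEq, Nat.mod_eq_of_lt hr]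
  rw [e, Nat.count_modEq_card N hQ]
  have hQr : (0 : ℝ) < Q := by exact_mod_cast hQ
  have hdiv : (N : ℝ) / Q = ((N / Q : ℕ) : ℝ) + ((N % Q : ℕ) : ℝ) / Q := by
    conv_lhs => rw [← Nat.div_add_mod N Q]
    push_cast
    field_simp
  have hlt : ((N % Q : ℕ) : ℝ) / Q < 1 := by
    rw [div_lt_one hQr]
    exact_mod_cast Nat.mod_lt N hQ
  have h0 : 0 ≤ ((N % Q : ℕ) : ℝ) / Q := by positivity
  rw [hdiv, abs_le]
  split_ifs <;> push_cast <;> constructor <;> linarith

lemma abs_card_classes_sub_le (R : ℕ → Finset ℕ) {S : Finset ℕ} (hS : ∀ p ∈ S, p.Prime)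
    (hR : ∀ p ∈ S, R p ⊆ range p) (N : ℕ) :
    |(((range N).filter fun n => ∀ p ∈ S, n % p ∈ R p).card : ℝ) -
      N * ∏ p ∈ S, ((R p).card : ℝ) / p| ≤ ∏ p ∈ S, ((R p).card : ℝ) := by
  set Q := ∏ p ∈ S, p with hQ
  have hQ0 : 0 < Q := Finset.prod_pos fun q hq => (hS q hq).pos
  have e : ((range N).filter fun n => ∀ p ∈ S, n % p ∈ R p).card =
      ∑ r ∈ classes R S, ((range N).filter fun n => n % Q = r).card := by
    rw [Finset.card_eq_sum_card_fiberwise (f := fun n => n % Q) (t := classes R S)]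
    · refine Finset.sum_congr rfl fun r hr => ?_
      rw [Finset.filter_filter]
      congr 1
      refine Finset.filter_congr fun n _ => ⟨fun h => h.2, fun h => ⟨fun p hp => ?_, h⟩⟩
      rw [← Nat.mod_mod_of_dvd n (Finset.dvd_prod_of_mem _ hp : p ∣ Q), h]
      exact (Finset.mem_filter.1 hr).2 p hp
    · intro n hn
      simp only [Finset.mem_coe, Finset.mem_filter] at hn
      simp only [Finset.mem_coe, classes, Finset.mem_filter, Finset.mem_range, ← hQ]
      refine ⟨Nat.mod_lt _ hQ0, fun p hp => ?_⟩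
      rw [Nat.mod_mod_of_dvd n (Finset.dvd_prod_of_mem _ hp : p ∣ Q)]
      exact hn.2 p hp
  have e2 : (N : ℝ) * ∏ p ∈ S, ((R p).card : ℝ) / p = ∑ r ∈ classes R S, (N : ℝ) / Q := by
    rw [Finset.sum_const, card_classes R hS hR, nsmul_eq_mul, Finset.prod_div_distrib, hQ]
    push_cast
    ring
  rw [e, e2, Nat.cast_sum, ← Finset.sum_sub_distrib]
  refine (Finset.abs_sum_le_sum_abs _ _).trans ?_
  refine le_of_le_of_eq (Finset.sum_le_sum (s := classes R S) (g := fun _ => (1 : ℝ)) fun r hr =>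
    abs_card_modEq_sub_le (Finset.mem_range.1 (Finset.mem_filter.1 hr).1) N) ?_
  rw [Finset.sum_const, card_classes R hS hR, nsmul_one, Nat.cast_prod]

/-- Brun's pure sieve: an upper bound for the integers below `N` avoiding the classes `R p`. -/
theorem brun_upper (P : Finset ℕ) (R : ℕ → Finset ℕ) (N m : ℕ) (hP : ∀ p ∈ P, p.Prime)
    (hR : ∀ p ∈ P, R p ⊆ range p) (hhalf : ∀ p ∈ P, 2 * (R p).card ≤ p)
    (hm : 9 * ∑ p ∈ P, ((R p).card : ℝ) / p ≤ 2 * m + 1) :
    (((range N).filter fun n => ∀ p ∈ P, n % p ∉ R p).card : ℝ) ≤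
      2 * N * ∏ p ∈ P, (1 - ((R p).card : ℝ) / p) +
        (1 + ∑ p ∈ P, ((R p).card : ℝ)) ^ (2 * m) := by
  refine card_unsifted_le_two P (range N) (fun p n => n % p ∈ R p) _ (Nat.cast_nonneg N)
    (fun p => ((R p).card : ℝ)) m (fun p hp => ⟨by positivity, ?_⟩) (fun p _ => Nat.cast_nonneg _)
    hm fun S hS _ => ?_
  · rw [div_le_iff₀ (by exact_mod_cast (hP p hp).pos)]
    have : (2 : ℝ) * (R p).card ≤ p := by exact_mod_cast hhalf p hp
    linarith
  · exact abs_card_classes_sub_le R (fun p hp => hP p (hS hp)) (fun p hp => hR p (hS hp)) N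

end Vale.Agent.P031.Sieve
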